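import Mathlib

/-!
P011, general odd n, (P2): the companion matrix `t` of a monic polynomial coprime to its
conjugate, and the invertible skew matrix `a` with `a t - t* a = e e*`.
-/

namespace Vale.Agent.P011.H275.Cmp

open Matrix Polynomial

set_option linter.unusedSectionVars false

variable {K : Type*} [Field K] [StarRing K]

/-- The monic polynomial with coefficients `c`. -/
noncomputable def Pc {m : ℕ} (c : Fin m → K) : K[X] :=
  X ^ m + ∑ i, C (c i) * X ^ (i : ℕ)

/-- Conjugate coefficients. -/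
def sc {m : ℕ} (c : Fin m → K) : Fin m → K := fun i => star (c i)

/-- The companion matrix of `Pc c`. -/
def cmp {m : ℕ} (c : Fin (m + 1) → K) : Matrix (Fin (m + 1)) (Fin (m + 1)) K :=
  fun i j => if j = Fin.last m then -c i else if (i : ℕ) = j + 1 then 1 else 0

/-- The last basis column. -/
def eL {m : ℕ} : Matrix (Fin (m + 1)) (Fin 1) K := fun i _ => if i = Fin.last m then 1 else 0

/-- The column of the differences of the coefficients. -/
def phi {m : ℕ} (c : Fin (m + 1) → K) : Matrix (Fin (m + 1)) (Fin 1) K :=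
  fun i _ => star (c i) - c i

section base
omit [StarRing K]

theorem cmp_single {m : ℕ} (c : Fin (m + 1) → K) {k : ℕ} (hk : k < m) :
    cmp c *ᵥ Pi.single (⟨k, by omega⟩ : Fin (m + 1)) 1
      = Pi.single (⟨k + 1, by omega⟩ : Fin (m + 1)) 1 := by
  rw [Matrix.mulVec_single_one]
  ext i
  have h1 : (⟨k, by omega⟩ : Fin (m + 1)) ≠ Fin.last m := by
    intro h; have := congrArg Fin.val h; simp at this; omega
  simp only [Matrix.col_apply, cmp, h1, if_false, Pi.single_apply]
  by_cases h : (i : ℕ) = k + 1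
  · rw [if_pos h, if_pos (Fin.ext h)]
  · rw [if_neg h, if_neg (fun e => h (congrArg Fin.val e))]

theorem cmp_last {m : ℕ} (c : Fin (m + 1) → K) :
    cmp c *ᵥ Pi.single (Fin.last m) 1 = -c := by
  rw [Matrix.mulVec_single_one]
  ext i
  simp [Matrix.col_apply, cmp]

theorem cmp_pow {m : ℕ} (c : Fin (m + 1) → K) : ∀ (k : ℕ) (hk : k < m + 1),
    (cmp c ^ k) *ᵥ Pi.single (⟨0, by omega⟩ : Fin (m + 1)) 1
      = Pi.single (⟨k, hk⟩ : Fin (m + 1)) 1
  | 0, _ => by rw [pow_zero, Matrix.one_mulVec]
  | k + 1, hk => by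
      rw [pow_succ', ← Matrix.mulVec_mulVec, cmp_pow c k (by omega), cmp_single c (by omega)]

theorem aeval_Pc {m : ℕ} (c : Fin m → K) {A : Type*} [Ring A] [Algebra K A] (t : A) :
    aeval t (Pc c) = t ^ m + ∑ i, c i • t ^ (i : ℕ) := by
  simp [Pc, Algebra.smul_def]

/-- Cayley-Hamilton for the companion matrix. -/
theorem aeval_cmp {m : ℕ} (c : Fin (m + 1) → K) : aeval (cmp c) (Pc c) = 0 := by
  have h0 : (aeval (cmp c) (Pc c)) *ᵥ Pi.single (⟨0, by omega⟩ : Fin (m + 1)) 1 = 0 := by
    rw [aeval_Pc, Matrix.add_mulVec, Matrix.sum_mulVec, pow_succ', ← Matrix.mulVec_mulVec,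
      cmp_pow c m (by omega)]
    have e1 : cmp c *ᵥ Pi.single (⟨m, by omega⟩ : Fin (m + 1)) 1 = -c := cmp_last c
    rw [e1]
    have e2 : ∀ i : Fin (m + 1), (c i • cmp c ^ (i : ℕ)) *ᵥ
        Pi.single (⟨0, by omega⟩ : Fin (m + 1)) 1 = c i • Pi.single i (1 : K) := by
      intro i
      rw [Matrix.smul_mulVec, cmp_pow c i i.2]
    simp only [e2]
    ext j
    simp [Finset.sum_apply, Pi.single_apply]
  have hj : ∀ j : Fin (m + 1), (aeval (cmp c) (Pc c)) *ᵥ Pi.single j 1 = 0 := by
    intro j
    rw [show j = ⟨(j : ℕ), j.2⟩ from rfl, ← cmp_pow c j j.2, Matrix.mulVec_mulVec]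
    have : aeval (cmp c) (Pc c) * cmp c ^ (j : ℕ) = cmp c ^ (j : ℕ) * aeval (cmp c) (Pc c) := by
      have e : cmp c ^ (j : ℕ) = aeval (cmp c) (X ^ (j : ℕ) : K[X]) := by simp
      rw [e, ← map_mul, ← map_mul, mul_comm]
    rw [this, ← Matrix.mulVec_mulVec, h0, Matrix.mulVec_zero]
  ext i j
  have := congrFun (hj j) i
  rw [Matrix.mulVec_single_one] at this
  simpa using this

theorem cmp_isUnit {m : ℕ} {c : Fin (m + 1) → K} (h : c 0 ≠ 0) :
    ∃ ti : Matrix (Fin (m + 1)) (Fin (m + 1)) K, cmp c * ti = 1 ∧ ti * cmp c = 1 := by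
  have h1 := aeval_cmp c
  rw [aeval_Pc, Fin.sum_univ_succ] at h1
  simp only [Fin.val_zero, pow_zero, Fin.val_succ] at h1
  set s : Matrix (Fin (m + 1)) (Fin (m + 1)) K :=
    cmp c ^ m + ∑ i : Fin m, c i.succ • cmp c ^ (i : ℕ) with hs
  have e1 : cmp c * s = -(c 0 • (1 : Matrix (Fin (m + 1)) (Fin (m + 1)) K)) := by
    rw [hs, mul_add, Finset.mul_sum, ← pow_succ']
    have : ∀ i : Fin m, cmp c * c i.succ • cmp c ^ (i : ℕ) = c i.succ • cmp c ^ ((i : ℕ) + 1) := by
      intro i; rw [mul_smul_comm, ← pow_succ']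
    simp only [this]
    rw [eq_neg_iff_add_eq_zero, ← h1]; abel
  have e2 : s * cmp c = -(c 0 • (1 : Matrix (Fin (m + 1)) (Fin (m + 1)) K)) := by
    rw [hs, add_mul, Finset.sum_mul, ← pow_succ]
    have : ∀ i : Fin m, c i.succ • cmp c ^ (i : ℕ) * cmp c = c i.succ • cmp c ^ ((i : ℕ) + 1) := by
      intro i; rw [smul_mul_assoc, ← pow_succ]
    simp only [this]
    rw [eq_neg_iff_add_eq_zero, ← h1]; abel
  refine ⟨(-(c 0)⁻¹) • s, ?_, ?_⟩
  · rw [mul_smul_comm, e1, smul_neg, smul_smul, neg_mul, inv_mul_cancel₀ h, neg_smul, neg_neg,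
      one_smul]
  · rw [smul_mul_assoc, e2, smul_neg, smul_smul, neg_mul, inv_mul_cancel₀ h, neg_smul, neg_neg,
      one_smul]

end base

theorem aeval_star {ι : Type*} [Fintype ι] [DecidableEq ι] {m : ℕ} (c : Fin m → K)
    (t : Matrix ι ι K) : aeval tᴴ (Pc (sc c)) = (aeval t (Pc c))ᴴ := by
  rw [aeval_Pc, aeval_Pc, Matrix.conjTranspose_add, Matrix.conjTranspose_pow,
    Matrix.conjTranspose_sum]
  congr 1
  refine Finset.sum_congr rfl fun i _ => ?_
  rw [Matrix.conjTranspose_smul, Matrix.conjTranspose_pow]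
  rfl

/-- A polynomial identity is transported by an intertwiner. -/
theorem intertwine {ι : Type*} [Fintype ι] [DecidableEq ι] {a s t : Matrix ι ι K}
    (h : a * t = s * a) (f : K[X]) : a * aeval t f = aeval s f * a := by
  induction f using Polynomial.induction_on' with
  | add p q hp hq => rw [map_add, map_add, mul_add, add_mul, hp, hq]
  | monomial n r =>
      have hk : a * t ^ n = s ^ n * a := by
        induction n with
        | zero => simp
        | succ n ih => rw [pow_succ, ← mul_assoc, ih, mul_assoc, h, ← mul_assoc, ← pow_succ]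
      rw [aeval_monomial, aeval_monomial, ← Algebra.smul_def, ← Algebra.smul_def,
        mul_smul_comm, hk, smul_mul_assoc]

theorem eL_mulVec_star {m : ℕ} (v : Fin (m + 1) → K) :
    (eL (K := K) (m := m))ᴴ *ᵥ v = fun _ => v (Fin.last m) := by
  ext i
  simp [Matrix.mulVec, dotProduct, eL, Matrix.conjTranspose_apply, apply_ite star,
    Finset.sum_ite_eq']

/-- The row `e* t^k` detects the coefficient of index `m - k` of a vector which vanishes above. -/
theorem top_coeff {m : ℕ} (c : Fin (m + 1) → K) : ∀ (k : ℕ) (v : Fin (m + 1) → K)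
    (hk : k < m + 1), (∀ i : Fin (m + 1), m - k < (i : ℕ) → v i = 0) →
    ((cmp c ^ k) *ᵥ v) (Fin.last m) = v ⟨m - k, by omega⟩
  | 0, v, _, _ => by
      simp only [pow_zero, Matrix.one_mulVec]
      congr 1
  | k + 1, v, hk, hv => by
      rw [pow_succ, ← Matrix.mulVec_mulVec]
      have hlast : v (Fin.last m) = 0 := hv _ (by simp only [Fin.val_last]; omega)
      have hval : ∀ i : Fin (m + 1), (cmp c *ᵥ v) i
          = if h : (i : ℕ) = 0 then 0 else v ⟨(i : ℕ) - 1, by omega⟩ := by
        intro i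
        simp only [Matrix.mulVec, dotProduct, cmp]
        by_cases h : (i : ℕ) = 0
        · rw [dif_pos h]
          refine Finset.sum_eq_zero fun j _ => ?_
          by_cases hj : j = Fin.last m
          · rw [if_pos hj, hj, hlast, mul_zero]
          · rw [if_neg hj, if_neg (by omega), zero_mul]
        · rw [dif_neg h]
          rw [Finset.sum_eq_single (⟨(i : ℕ) - 1, by omega⟩ : Fin (m + 1))]
          · by_cases hj : (⟨(i : ℕ) - 1, by omega⟩ : Fin (m + 1)) = Fin.last m
            · exfalso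
              have := congrArg Fin.val hj
              simp only [Fin.val_last] at this
              have := i.2
              omega
            · rw [if_neg hj, if_pos (by simp only; omega), one_mul]
          · intro j _ hj
            by_cases hl : j = Fin.last m
            · rw [if_pos hl, hl, hlast, mul_zero]
            · rw [if_neg hl, if_neg, zero_mul]
              intro he
              exact hj (Fin.ext (by simp only; omega))
          · intro h'; exact absurd (Finset.mem_univ _) h'
      rw [top_coeff c k (cmp c *ᵥ v) (by omega)]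
      · rw [hval, dif_neg (by simp only; omega)]
        congr 1
      · intro i hi
        rw [hval]
        by_cases h : (i : ℕ) = 0
        · rw [dif_pos h]
        · rw [dif_neg h]
          exact hv _ (by simp only; omega)

/-- A vector all of whose `cmp`-translates have last coefficient zero is zero. -/
theorem cyclic {m : ℕ} (c : Fin (m + 1) → K) (v : Fin (m + 1) → K)
    (h : ∀ k : ℕ, k < m + 1 → ((cmp c ^ k) *ᵥ v) (Fin.last m) = 0) : v = 0 := by
  have key : ∀ k : ℕ, k ≤ m + 1 → ∀ i : Fin (m + 1), m < (i : ℕ) + k → v i = 0 := by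
    intro k
    induction k with
    | zero => intro _ i hi; have := i.2; omega
    | succ k ih =>
        intro hk i hi
        by_cases h1 : m < (i : ℕ) + k
        · exact ih (by omega) i h1
        · have h2 := top_coeff c k v (by omega) (fun j hj => ih (by omega) j (by omega))
          rw [h k (by omega)] at h2
          have : (⟨m - k, by omega⟩ : Fin (m + 1)) = i := Fin.ext (by simp only; omega)
          rw [this] at h2
          exact h2.symm
  ext i
  exact key (m + 1) le_rfl i (by omega)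

/-- **(P2).** -/
theorem companion {m : ℕ} (c : Fin (m + 1) → K) (hc : IsCoprime (Pc c) (Pc (sc c))) :
    aeval (cmp c) (Pc c) = 0 ∧
    ∃ a ai : Matrix (Fin (m + 1)) (Fin (m + 1)) K, a * ai = 1 ∧ ai * a = 1 ∧ a + aᴴ = 0 ∧
      a * cmp c - (cmp c)ᴴ * a = (eL (K := K) (m := m)) * (eL (K := K) (m := m))ᴴ ∧
      ai * eL = phi c := by
  refine ⟨aeval_cmp c, ?_⟩
  set t := cmp c with ht
  have hpt : aeval t (Pc c) = 0 := aeval_cmp c
  have hps : aeval tᴴ (Pc (sc c)) = 0 := by rw [aeval_star, hpt, Matrix.conjTranspose_zero]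
  -- uniqueness for the Sylvester equation
  have huniq : ∀ a : Matrix (Fin (m + 1)) (Fin (m + 1)) K, a * t - tᴴ * a = 0 → a = 0 := by
    intro a ha
    have h1 : a * t = tᴴ * a := sub_eq_zero.mp ha
    have h2 := intertwine h1 (Pc c)
    rw [hpt, mul_zero] at h2
    obtain ⟨u, w, huw⟩ := hc
    have h3 : aeval tᴴ u * aeval tᴴ (Pc c) = 1 := by
      have := congrArg (aeval tᴴ) huw
      rw [map_add, map_mul, map_mul, hps, mul_zero, add_zero, map_one] at this
      exact this
    calc a = aeval tᴴ u * aeval tᴴ (Pc c) * a := by rw [h3, one_mul]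
      _ = aeval tᴴ u * (aeval tᴴ (Pc c) * a) := by rw [mul_assoc]
      _ = 0 := by rw [← h2, mul_zero]
  -- existence
  have hsurj : ∀ b : Matrix (Fin (m + 1)) (Fin (m + 1)) K, ∃ a, a * t - tᴴ * a = b := by
    let L : Matrix (Fin (m + 1)) (Fin (m + 1)) K →ₗ[K] Matrix (Fin (m + 1)) (Fin (m + 1)) K :=
      LinearMap.mulRight K t - LinearMap.mulLeft K tᴴ
    have hL : ∀ a, L a = a * t - tᴴ * a := fun a => by simp [L]
    have hinj : Function.Injective L := by
      rw [injective_iff_map_eq_zero]
      intro a ha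
      rw [hL] at ha
      exact huniq a ha
    have := LinearMap.injective_iff_surjective.mp hinj
    intro b
    obtain ⟨a, ha⟩ := this b
    exact ⟨a, by rw [← hL, ha]⟩
  obtain ⟨a, ha⟩ := hsurj ((eL (K := K) (m := m)) * (eL (K := K) (m := m))ᴴ)
  have hskew : a + aᴴ = 0 := by
    apply huniq
    have h1 := congrArg Matrix.conjTranspose ha
    simp only [Matrix.conjTranspose_sub, Matrix.conjTranspose_mul,
      Matrix.conjTranspose_conjTranspose] at h1
    have : (a + aᴴ) * t - tᴴ * (a + aᴴ) = (a * t - tᴴ * a) - (tᴴ * aᴴ - aᴴ * t) := by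
      rw [add_mul, mul_add]; abel
    rw [this, ha, h1, sub_self]
  -- injectivity
  have hker : ∀ v : Fin (m + 1) → K, a *ᵥ v = 0 → a *ᵥ (t *ᵥ v) = 0 ∧ v (Fin.last m) = 0 := by
    intro v hv
    have hst : star v ᵥ* a = 0 := by
      have h1 : star (a *ᵥ v) = 0 := by rw [hv, star_zero]
      rw [Matrix.star_mulVec] at h1
      have h2 : aᴴ = -a := eq_neg_of_add_eq_zero_right hskew
      rw [h2, Matrix.vecMul_neg, neg_eq_zero] at h1
      exact h1
    have h1 : (a * t - tᴴ * a) *ᵥ v = fun i => (if i = Fin.last m then 1 else 0) * v (Fin.last m) := by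
      rw [ha, ← Matrix.mulVec_mulVec, eL_mulVec_star]
      ext i
      simp [Matrix.mulVec, dotProduct, eL]
    have h2 : (a * t - tᴴ * a) *ᵥ v = a *ᵥ (t *ᵥ v) := by
      rw [Matrix.sub_mulVec, ← Matrix.mulVec_mulVec, ← Matrix.mulVec_mulVec, hv,
        Matrix.mulVec_zero, sub_zero]
    have h3 : star v ⬝ᵥ (a *ᵥ (t *ᵥ v)) = 0 := by
      rw [Matrix.dotProduct_mulVec, hst, zero_dotProduct]
    have h4 : star (v (Fin.last m)) * v (Fin.last m) = 0 := by
      rw [← h2, h1] at h3
      simpa [dotProduct, Finset.sum_ite_eq'] using h3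
    have h5 : v (Fin.last m) = 0 := by
      rcases mul_eq_zero.mp h4 with h | h
      · exact star_eq_zero.mp h
      · exact h
    refine ⟨?_, h5⟩
    rw [← h2, h1, h5]
    ext i; simp
  have hinj : Function.Injective a.mulVec := by
    intro v w hvw
    have hv : a *ᵥ (v - w) = 0 := by rw [Matrix.mulVec_sub]; exact sub_eq_zero.mpr hvw
    have : v - w = 0 := by
      apply cyclic c
      have hall : ∀ k : ℕ, a *ᵥ ((cmp c ^ k) *ᵥ (v - w)) = 0 := by
        intro k
        induction k with
        | zero => simpa using hv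
        | succ k ih =>
            rw [pow_succ', ← Matrix.mulVec_mulVec]
            exact (hker _ ih).1
      intro k _
      exact (hker _ (hall k)).2
    exact sub_eq_zero.mp this
  have hunit : IsUnit a := Matrix.mulVec_injective_iff_isUnit.mp hinj
  obtain ⟨⟨a', ai, h1, h2⟩, rfl⟩ := hunit
  simp only at *
  refine ⟨a', ai, h1, h2, hskew, ha, ?_⟩
  -- the column
  set e : Matrix (Fin (m + 1)) (Fin 1) K := eL with he
  set f : Matrix (Fin (m + 1)) (Fin 1) K := ai * e with hf
  have hsim : a' * (t - f * eᴴ) = tᴴ * a' := by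
    have h7 : a' * (f * eᴴ) = e * eᴴ := by
      rw [hf, ← Matrix.mul_assoc, ← Matrix.mul_assoc, h1, Matrix.one_mul]
    rw [mul_sub, h7, ← ha]
    abel
  have hzero : aeval (t - f * eᴴ) (Pc (sc c)) = 0 := by
    have := intertwine hsim (Pc (sc c))
    rw [hps, zero_mul] at this
    calc aeval (t - f * eᴴ) (Pc (sc c)) = ai * a' * aeval (t - f * eᴴ) (Pc (sc c)) := by
          rw [h2, one_mul]
      _ = 0 := by rw [mul_assoc, this, mul_zero]
  -- `t - f e*` is the companion matrix of `c + f`
  have hcomp : t - f * eᴴ = cmp (fun i => c i + f i 0) := by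
    ext i j
    simp only [Matrix.sub_apply, Matrix.mul_apply, Matrix.conjTranspose_apply, he, eL, ht, cmp,
      Finset.univ_unique, Fin.default_eq_zero, Finset.sum_singleton]
    by_cases hj : j = Fin.last m
    · simp [hj]; ring
    · simp [hj]
  rw [hcomp] at hzero
  have hz := congrArg (fun M => M *ᵥ (Pi.single (⟨0, by omega⟩ : Fin (m + 1)) (1 : K))) hzero
  simp only [Matrix.zero_mulVec] at hz
  rw [aeval_Pc, Matrix.add_mulVec, Matrix.sum_mulVec, pow_succ', ← Matrix.mulVec_mulVec,
    cmp_pow _ m (by omega)] at hz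
  have e1 : cmp (fun i => c i + f i 0) *ᵥ Pi.single (⟨m, by omega⟩ : Fin (m + 1)) 1
      = -(fun i => c i + f i 0) := cmp_last _
  rw [e1] at hz
  have e2 : ∀ i : Fin (m + 1), (sc c i • cmp (fun i => c i + f i 0) ^ (i : ℕ)) *ᵥ
      Pi.single (⟨0, by omega⟩ : Fin (m + 1)) 1 = sc c i • Pi.single i (1 : K) := by
    intro i
    rw [Matrix.smul_mulVec, cmp_pow _ i i.2]
  simp only [e2] at hz
  ext i j
  have := congrFun hz i
  simp only [Pi.add_apply, Pi.neg_apply, Finset.sum_apply, Pi.smul_apply, Pi.single_apply,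
    smul_eq_mul, mul_ite, mul_one, mul_zero, Finset.sum_ite_eq, Finset.mem_univ, if_true,
    Pi.zero_apply, sc] at this
  have hj : j = 0 := Subsingleton.elim _ _
  rw [hj, phi]
  have h6 : f i 0 = star (c i) - c i := by
    have := this
    linear_combination -this
  exact h6

end Vale.Agent.P011.H275.Cmp
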