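import Mathlib

/-!
P011, general odd n, (B1): the rectangular (block) forms of the unitary elements
`1 - x* a^-1 x`, the matrix move and the exchange identity.
Everything is over an arbitrary ring with involution.
-/

namespace Vale.Agent.P011.H275.Blk

open Matrix

set_option linter.unusedSectionVars false

variable {D : Type*} [Ring D] [StarRing D]
variable {ι κ o : Type*} [Fintype ι] [DecidableEq ι] [Fintype κ] [DecidableEq κ]
  [Fintype o] [DecidableEq o]

/-- `uu x ai = 1 - x* a^-1 x`, where `ai` is the inverse of `a`. -/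
def uu (x : Matrix ι o D) (ai : Matrix ι ι D) : Matrix o o D := 1 - xᴴ * ai * x

omit [DecidableEq ι] [Fintype o] in
theorem uu_def (x : Matrix ι o D) (ai : Matrix ι ι D) : uu x ai = 1 - xᴴ * ai * x := rfl

omit [DecidableEq ι] [Fintype o] in
theorem uu_star (x : Matrix ι o D) (ai : Matrix ι ι D) : (uu x ai)ᴴ = 1 - xᴴ * aiᴴ * x := by
  simp [uu, Matrix.conjTranspose_sub, Matrix.conjTranspose_mul, Matrix.mul_assoc]

omit [DecidableEq ι] [Fintype o] in
theorem uu_zero (ai : Matrix ι ι D) : uu (0 : Matrix ι o D) ai = 1 := by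
  simp [uu]

theorem uu_unitary {x : Matrix ι o D} {a ai : Matrix ι ι D} (h1 : a * ai = 1) (h2 : ai * a = 1)
    (h : a + aᴴ = x * xᴴ) :
    uu x ai * (uu x ai)ᴴ = 1 ∧ (uu x ai)ᴴ * uu x ai = 1 := by
  have g1 : aᴴ * aiᴴ = 1 := by rw [← Matrix.conjTranspose_mul, h2, Matrix.conjTranspose_one]
  have g2 : aiᴴ * aᴴ = 1 := by rw [← Matrix.conjTranspose_mul, h1, Matrix.conjTranspose_one]
  have e1 : ai * (x * xᴴ) * aiᴴ = ai + aiᴴ := by
    rw [← h, Matrix.mul_add, Matrix.add_mul, h2, Matrix.one_mul, Matrix.mul_assoc ai aᴴ aiᴴ, g1,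
      Matrix.mul_one, add_comm]
  have e2 : aiᴴ * (x * xᴴ) * ai = ai + aiᴴ := by
    rw [← h, Matrix.mul_add, Matrix.add_mul, g2, Matrix.one_mul, Matrix.mul_assoc aiᴴ a ai, h1,
      Matrix.mul_one, add_comm]
  constructor
  · rw [uu_star, uu_def]
    have : (xᴴ * ai * x) * (xᴴ * aiᴴ * x) = xᴴ * ai * x + xᴴ * aiᴴ * x := by
      calc (xᴴ * ai * x) * (xᴴ * aiᴴ * x) = xᴴ * (ai * (x * xᴴ) * aiᴴ) * x := by
            simp only [Matrix.mul_assoc]
        _ = _ := by rw [e1, Matrix.mul_add, Matrix.add_mul]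
    rw [Matrix.sub_mul, Matrix.mul_sub, Matrix.mul_sub, Matrix.one_mul, Matrix.mul_one,
      Matrix.one_mul, this]
    abel
  · rw [uu_star, uu_def]
    have : (xᴴ * aiᴴ * x) * (xᴴ * ai * x) = xᴴ * ai * x + xᴴ * aiᴴ * x := by
      calc (xᴴ * aiᴴ * x) * (xᴴ * ai * x) = xᴴ * (aiᴴ * (x * xᴴ) * ai) * x := by
            simp only [Matrix.mul_assoc]
        _ = _ := by rw [e2, Matrix.mul_add, Matrix.add_mul]
    rw [Matrix.sub_mul, Matrix.mul_sub, Matrix.mul_sub, Matrix.one_mul, Matrix.mul_one,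
      Matrix.one_mul, this]
    abel

/-- `z + z* = (y1 + y2)(y1 + y2)*`. -/
theorem move_add {r a z : Matrix ι ι D} {y1 y2 : Matrix ι o D}
    (ha : a + aᴴ = y1 * y1ᴴ) (hr : a * r + rᴴ * aᴴ = y2 * y2ᴴ)
    (hz : z = a + rᴴ * aᴴ + y2 * y1ᴴ) :
    z + zᴴ = (y1 + y2) * (y1 + y2)ᴴ := by
  have e : (y1 + y2) * (y1 + y2)ᴴ = (a + aᴴ) + (a * r + rᴴ * aᴴ) + y2 * y1ᴴ + y1 * y2ᴴ := by
    rw [ha, hr, Matrix.conjTranspose_add, Matrix.mul_add, Matrix.add_mul, Matrix.add_mul]
    abel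
  rw [e, hz]
  simp only [Matrix.conjTranspose_add, Matrix.conjTranspose_mul, Matrix.conjTranspose_conjTranspose]
  abel

/-- `z r + r* z* = (r* y1 + y2)(r* y1 + y2)*`. -/
theorem move_mul {r a z : Matrix ι ι D} {y1 y2 : Matrix ι o D}
    (ha : a + aᴴ = y1 * y1ᴴ) (hr : a * r + rᴴ * aᴴ = y2 * y2ᴴ)
    (hz : z = a + rᴴ * aᴴ + y2 * y1ᴴ) :
    z * r + rᴴ * zᴴ = (rᴴ * y1 + y2) * (rᴴ * y1 + y2)ᴴ := by
  have e : (rᴴ * y1 + y2) * (rᴴ * y1 + y2)ᴴ
      = rᴴ * (a + aᴴ) * r + (a * r + rᴴ * aᴴ) + y2 * y1ᴴ * r + rᴴ * (y1 * y2ᴴ) := by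
    rw [ha, hr]
    simp only [Matrix.conjTranspose_add, Matrix.conjTranspose_mul,
      Matrix.conjTranspose_conjTranspose, Matrix.mul_add, Matrix.add_mul, Matrix.mul_assoc]
    abel
  rw [e, hz]
  simp only [Matrix.conjTranspose_add, Matrix.conjTranspose_mul, Matrix.conjTranspose_conjTranspose,
    Matrix.mul_add, Matrix.add_mul, Matrix.mul_assoc]
  abel

/-- **The matrix move.** -/
theorem uu_move {r ri a ai z zi : Matrix ι ι D} {y1 y2 : Matrix ι o D}
    (hr1 : r * ri = 1) (hr2 : ri * r = 1) (ha1 : a * ai = 1) (ha2 : ai * a = 1)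
    (hz1 : z * zi = 1) (hz2 : zi * z = 1)
    (ha : a + aᴴ = y1 * y1ᴴ) (hr : a * r + rᴴ * aᴴ = y2 * y2ᴴ)
    (hz : z = a + rᴴ * aᴴ + y2 * y1ᴴ) :
    uu (rᴴ * y1 + y2) (ri * zi) * uu y1 ai = uu y2 (ri * ai) * uu (y1 + y2) zi := by
  -- first factor: `X2 * uu y1 ai = X1 - z ai y1`
  have k1 : (rᴴ * y1 + y2) * y1ᴴ = z - a + rᴴ * a := by
    have : (rᴴ * y1 + y2) * y1ᴴ = rᴴ * (a + aᴴ) + y2 * y1ᴴ := by
      rw [ha, Matrix.add_mul, Matrix.mul_assoc]
    rw [this, hz, Matrix.mul_add]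
    abel
  have k2 : (rᴴ * y1 + y2) * uu y1 ai = (y1 + y2) - z * (ai * y1) := by
    have : (rᴴ * y1 + y2) * (y1ᴴ * ai * y1) = (z - a + rᴴ * a) * (ai * y1) := by
      rw [← k1]; simp only [Matrix.mul_assoc]
    have h3 : a * (ai * y1) = y1 := by rw [← Matrix.mul_assoc, ha1, Matrix.one_mul]
    rw [uu_def, Matrix.mul_sub, Matrix.mul_one, this, Matrix.add_mul, Matrix.sub_mul,
      Matrix.mul_assoc rᴴ a, h3]
    abel
  have k3 : (rᴴ * y1 + y2)ᴴ * ri = y1ᴴ + y2ᴴ * ri := by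
    rw [Matrix.conjTranspose_add, Matrix.conjTranspose_mul, Matrix.conjTranspose_conjTranspose,
      Matrix.add_mul, Matrix.mul_assoc, hr1, Matrix.mul_one]
  have k4 : zi * (z * (ai * y1)) = ai * y1 := by rw [← Matrix.mul_assoc, hz2, Matrix.one_mul]
  have L : uu (rᴴ * y1 + y2) (ri * zi) * uu y1 ai
      = 1 - (y1ᴴ * (zi * (y1 + y2)) + y2ᴴ * (ri * (zi * (y1 + y2))) - y2ᴴ * (ri * (ai * y1))) := by
    have e1 : (rᴴ * y1 + y2)ᴴ * (ri * zi) * (rᴴ * y1 + y2) * uu y1 ai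
        = (y1ᴴ + y2ᴴ * ri) * (zi * ((y1 + y2) - z * (ai * y1))) := by
      rw [← k3, ← k2]; simp only [Matrix.mul_assoc]
    rw [uu_def (rᴴ * y1 + y2), Matrix.sub_mul, Matrix.one_mul, e1, Matrix.mul_sub zi, k4, uu_def]
    simp only [Matrix.mul_sub, Matrix.add_mul, Matrix.mul_assoc, Matrix.mul_add]
    abel
  -- second factor
  have m1 : y2 * (y1 + y2)ᴴ = z - a + a * r := by
    have : y2 * (y1 + y2)ᴴ = y2 * y1ᴴ + (a * r + rᴴ * aᴴ) := by
      rw [hr, Matrix.conjTranspose_add, Matrix.mul_add]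
    rw [this, hz]
    abel
  have m2 : uu y2 (ri * ai) * (y1 + y2)ᴴ = y1ᴴ - y2ᴴ * (ri * (ai * z)) + y2ᴴ * ri := by
    have e1 : y2ᴴ * (ri * ai) * y2 * (y1 + y2)ᴴ = y2ᴴ * (ri * ai) * (z - a + a * r) := by
      rw [← m1]; simp only [Matrix.mul_assoc]
    have e2 : y2ᴴ * (ri * ai) * (z - a + a * r) = y2ᴴ * (ri * (ai * z)) - y2ᴴ * ri + y2ᴴ := by
      have a1 : (ri * ai) * a = ri := by rw [Matrix.mul_assoc, ha2, Matrix.mul_one]
      have a2 : (ri * ai) * (a * r) = 1 := by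
        rw [← Matrix.mul_assoc, a1, hr2]
      rw [Matrix.mul_assoc, Matrix.mul_add (ri * ai), Matrix.mul_sub (ri * ai), a1, a2,
        Matrix.mul_add, Matrix.mul_sub, Matrix.mul_one, Matrix.mul_assoc ri ai z]
    rw [uu_def, Matrix.sub_mul, Matrix.one_mul, e1, e2, Matrix.conjTranspose_add]
    abel
  have R : uu y2 (ri * ai) * uu (y1 + y2) zi
      = 1 - (y1ᴴ * (zi * (y1 + y2)) + y2ᴴ * (ri * (zi * (y1 + y2))) - y2ᴴ * (ri * (ai * y1))) := by
    have e1 : uu y2 (ri * ai) * ((y1 + y2)ᴴ * zi * (y1 + y2))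
        = (y1ᴴ - y2ᴴ * (ri * (ai * z)) + y2ᴴ * ri) * (zi * (y1 + y2)) := by
      rw [← m2]; simp only [Matrix.mul_assoc]
    have e2 : z * (zi * (y1 + y2)) = y1 + y2 := by rw [← Matrix.mul_assoc, hz1, Matrix.one_mul]
    rw [uu_def (y1 + y2), Matrix.mul_sub, Matrix.mul_one, e1, Matrix.add_mul, Matrix.sub_mul]
    have e3 : y2ᴴ * (ri * (ai * z)) * (zi * (y1 + y2)) = y2ᴴ * (ri * (ai * (y1 + y2))) := by
      conv_rhs => rw [← e2]
      simp only [Matrix.mul_assoc]
    rw [e3, uu_def]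
    simp only [Matrix.mul_add, Matrix.mul_assoc]
    abel
  rw [L, R]

omit [StarRing D] in
/-- Schur complements: one inverse gives the other. -/
theorem schur {p pi : Matrix ι ι D} {t ti : Matrix κ κ D} {q : Matrix ι κ D} {s : Matrix κ ι D}
    {Ri : Matrix ι ι D}
    (hp1 : p * pi = 1) (hp2 : pi * p = 1) (ht1 : t * ti = 1) (ht2 : ti * t = 1)
    (hR1 : (p - q * ti * s) * Ri = 1) (hR2 : Ri * (p - q * ti * s) = 1) :
    (t - s * pi * q) * (ti + ti * s * Ri * q * ti) = 1 ∧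
    (ti + ti * s * Ri * q * ti) * (t - s * pi * q) = 1 := by
  have a1 : s * pi * q * ti * s * Ri = s * Ri - s * pi := by
    have : s * pi * ((p - q * ti * s) * Ri) = s * pi := by rw [hR1, Matrix.mul_one]
    have e : s * pi * ((p - q * ti * s) * Ri) = s * (pi * p) * Ri - s * pi * q * ti * s * Ri := by
      simp only [Matrix.mul_sub, Matrix.sub_mul, Matrix.mul_assoc]
    rw [hp2, Matrix.mul_one, this] at e
    calc s * pi * q * ti * s * Ri = s * Ri - (s * Ri - s * pi * q * ti * s * Ri) := by abel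
      _ = s * Ri - s * pi := by rw [← e]
  have a2 : Ri * q * ti * s * pi * q = Ri * q - pi * q := by
    have : (Ri * (p - q * ti * s)) * (pi * q) = pi * q := by rw [hR2, Matrix.one_mul]
    have e : (Ri * (p - q * ti * s)) * (pi * q)
        = Ri * (p * pi) * q - Ri * q * ti * s * pi * q := by
      simp only [Matrix.mul_sub, Matrix.sub_mul, Matrix.mul_assoc]
    rw [hp1, Matrix.mul_one, this] at e
    rw [e]; abel
  constructor
  · have e : (t - s * pi * q) * (ti + ti * s * Ri * q * ti)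
        = t * ti - s * pi * q * ti + (t * ti) * s * Ri * q * ti
          - (s * pi * q * ti * s * Ri) * q * ti := by
      simp only [Matrix.mul_add, Matrix.sub_mul, Matrix.mul_assoc]
      abel
    rw [e, a1, ht1, Matrix.one_mul]
    simp only [Matrix.sub_mul]
    abel
  · have e : (ti + ti * s * Ri * q * ti) * (t - s * pi * q)
        = ti * t - ti * s * pi * q + ti * s * Ri * q * (ti * t)
          - ti * s * (Ri * q * ti * s * pi * q) := by
      simp only [Matrix.add_mul, Matrix.mul_sub, Matrix.mul_assoc]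
      abel
    rw [e, a2, ht2, Matrix.mul_one]
    simp only [Matrix.mul_sub, Matrix.mul_assoc]
    abel

/-- The half of the exchange identity (`S` side). -/
theorem uu_half {v : Matrix ι o D} {w : Matrix κ o D} {p pi : Matrix ι ι D}
    {q : Matrix ι κ D} {s : Matrix κ ι D} (Si : Matrix κ κ D)
    (hp2 : pi * p = 1)
    (hv : p + pᴴ = v * vᴴ) (hvw : q + sᴴ = v * wᴴ) :
    uu v pi * uu (w - s * pi * v) Si
      = 1 - (vᴴ * pi * v + (wᴴ - vᴴ * pi * q) * Si * (w - s * pi * v)) := by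
  have g1 : pᴴ * piᴴ = 1 := by rw [← Matrix.conjTranspose_mul, hp2, Matrix.conjTranspose_one]
  have k : uu v pi * (w - s * pi * v)ᴴ = wᴴ - vᴴ * pi * q := by
    have e1 : (w - s * pi * v)ᴴ = wᴴ - vᴴ * piᴴ * sᴴ := by
      simp [Matrix.conjTranspose_sub, Matrix.conjTranspose_mul, Matrix.mul_assoc]
    have e2 : vᴴ * pi * v * wᴴ = vᴴ * pi * q + vᴴ * pi * sᴴ := by
      rw [Matrix.mul_assoc, ← hvw, Matrix.mul_add]
    have e3 : vᴴ * pi * v * (vᴴ * piᴴ * sᴴ) = vᴴ * piᴴ * sᴴ + vᴴ * pi * sᴴ := by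
      have : vᴴ * pi * v * (vᴴ * piᴴ * sᴴ) = vᴴ * (pi * (v * vᴴ) * piᴴ) * sᴴ := by
        simp only [Matrix.mul_assoc]
      rw [this, ← hv, Matrix.mul_add, Matrix.add_mul, hp2, Matrix.one_mul, Matrix.mul_assoc pi pᴴ,
        g1, Matrix.mul_one, Matrix.mul_add, Matrix.add_mul]
    rw [uu_def, e1, Matrix.sub_mul, Matrix.one_mul, Matrix.mul_sub, e2, e3]
    abel
  have e : uu v pi * ((w - s * pi * v)ᴴ * Si * (w - s * pi * v))
      = (wᴴ - vᴴ * pi * q) * Si * (w - s * pi * v) := by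
    rw [← k]; simp only [Matrix.mul_assoc]
  rw [uu_def (w - s * pi * v), Matrix.mul_sub, Matrix.mul_one, e, uu_def]
  abel

/-- **The exchange identity.** -/
theorem uu_exchange {v : Matrix ι o D} {w : Matrix κ o D} {p pi : Matrix ι ι D}
    {t ti : Matrix κ κ D} {q : Matrix ι κ D} {s : Matrix κ ι D}
    {Si : Matrix κ κ D} {Ri : Matrix ι ι D}
    (hp1 : p * pi = 1) (hp2 : pi * p = 1) (ht1 : t * ti = 1) (ht2 : ti * t = 1)
    (hS1 : (t - s * pi * q) * Si = 1) (hS2 : Si * (t - s * pi * q) = 1)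
    (hR1 : (p - q * ti * s) * Ri = 1) (hR2 : Ri * (p - q * ti * s) = 1)
    (hv : p + pᴴ = v * vᴴ) (hw : t + tᴴ = w * wᴴ) (hvw : q + sᴴ = v * wᴴ) :
    uu v pi * uu (w - s * pi * v) Si = uu w ti * uu (v - q * ti * w) Ri := by
  have hvw' : s + qᴴ = w * vᴴ := by
    have := congrArg Matrix.conjTranspose hvw
    simp only [Matrix.conjTranspose_add, Matrix.conjTranspose_mul,
      Matrix.conjTranspose_conjTranspose] at this
    rw [← this]; abel
  have eS : Si = ti + ti * s * Ri * q * ti := by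
    have := (schur hp1 hp2 ht1 ht2 hR1 hR2).1
    calc Si = Si * ((t - s * pi * q) * (ti + ti * s * Ri * q * ti)) := by
          rw [this, Matrix.mul_one]
      _ = _ := by rw [← Matrix.mul_assoc, hS2, Matrix.one_mul]
  have eR : Ri = pi + pi * q * Si * s * pi := by
    have := (schur ht1 ht2 hp1 hp2 hS1 hS2).1
    calc Ri = Ri * ((p - q * ti * s) * (pi + pi * q * Si * s * pi)) := by
          rw [this, Matrix.mul_one]
      _ = _ := by rw [← Matrix.mul_assoc, hR2, Matrix.one_mul]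
  have c1 : ti * s * Ri = Si * s * pi := by
    have : (t - s * pi * q) * (ti * s * Ri) = s * pi := by
      have e : (t - s * pi * q) * (ti * s * Ri)
          = (t * ti) * s * Ri - s * pi * (q * ti * s) * Ri := by
        simp only [Matrix.sub_mul, Matrix.mul_assoc]
      have e' : s * pi * (p - q * ti * s) * Ri = s * pi := by
        rw [Matrix.mul_assoc, hR1, Matrix.mul_one]
      rw [e, ht1, Matrix.one_mul]
      have e'' : s * pi * (p - q * ti * s) * Ri
          = s * (pi * p) * Ri - s * pi * (q * ti * s) * Ri := by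
        simp only [Matrix.mul_sub, Matrix.sub_mul, Matrix.mul_assoc]
      rw [hp2, Matrix.mul_one] at e''
      rw [← e'', e']
    calc ti * s * Ri = Si * ((t - s * pi * q) * (ti * s * Ri)) := by
          rw [← Matrix.mul_assoc, hS2, Matrix.one_mul]
      _ = _ := by rw [this, ← Matrix.mul_assoc]
  have c2 : Ri * q * ti = pi * q * Si := by
    have : (p - q * ti * s) * (pi * q * Si) = q * ti := by
      have e : (p - q * ti * s) * (pi * q * Si)
          = (p * pi) * q * Si - q * ti * (s * pi * q) * Si := by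
        simp only [Matrix.sub_mul, Matrix.mul_assoc]
      have e' : q * ti * (t - s * pi * q) * Si = q * ti := by
        rw [Matrix.mul_assoc, hS1, Matrix.mul_one]
      rw [e, hp1, Matrix.one_mul]
      have e'' : q * ti * (t - s * pi * q) * Si
          = q * (ti * t) * Si - q * ti * (s * pi * q) * Si := by
        simp only [Matrix.mul_sub, Matrix.sub_mul, Matrix.mul_assoc]
      rw [ht2, Matrix.mul_one] at e''
      rw [← e'', e']
    calc Ri * q * ti = Ri * ((p - q * ti * s) * (pi * q * Si)) := by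
          rw [this, ← Matrix.mul_assoc]
      _ = _ := by rw [← Matrix.mul_assoc, hR2, Matrix.one_mul]
  rw [uu_half Si hp2 hv hvw, uu_half Ri ht2 hw hvw']
  congr 1
  have lhs : vᴴ * pi * v + (wᴴ - vᴴ * pi * q) * Si * (w - s * pi * v)
      = vᴴ * (pi + pi * q * Si * s * pi) * v + wᴴ * Si * w - vᴴ * (pi * q * Si) * w
        - wᴴ * (Si * s * pi) * v := by
    simp only [Matrix.mul_sub, Matrix.sub_mul, Matrix.mul_add, Matrix.add_mul, Matrix.mul_assoc]
    abel
  have rhs : wᴴ * ti * w + (vᴴ - wᴴ * ti * s) * Ri * (v - q * ti * w)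
      = wᴴ * (ti + ti * s * Ri * q * ti) * w + vᴴ * Ri * v - wᴴ * (ti * s * Ri) * v
        - vᴴ * (Ri * q * ti) * w := by
    simp only [Matrix.mul_sub, Matrix.sub_mul, Matrix.mul_add, Matrix.add_mul, Matrix.mul_assoc]
    abel
  rw [lhs, rhs, ← eS, ← eR, c1, c2]
  abel

end Vale.Agent.P011.H275.Blk
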