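import Mathlib

/-!
P011, general odd n, (G8), matrix part: a germ of a homomorphism on the matrices near one over a
topological division ring, invariant under fixed conjugations, is determined by the product of
the pivots; and its value at a scalar matrix is `n` times its value at `diag(d, 1, .., 1)`.
-/

namespace Vale.Agent.P011.H275.GW8

open Matrix Filter Topology

set_option linter.unusedSectionVars false

variable {Δ : Type*} [DivisionRing Δ] [TopologicalSpace Δ] [IsTopologicalRing Δ] {n : ℕ}

/-- Square matrices. -/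
abbrev M (n : ℕ) (Δ : Type*) := Matrix (Fin n) (Fin n) Δ

/-- The diagonal matrix with `d` at the place `i` and `1` elsewhere. -/
def dg (i : Fin n) (d : Δ) : M n Δ := Matrix.diagonal (Function.update (1 : Fin n → Δ) i d)

/-- Families of products of small transvections. -/
inductive TF : (M n Δ → M n Δ) → Prop
  | one : TF (fun _ => 1)
  | mul {c : M n Δ → Δ} {f : M n Δ → M n Δ} (i j : Fin n) (hij : i ≠ j)
      (hc : Tendsto c (𝓝 1) (𝓝 0)) (hf : TF f) : TF (fun X => (1 + Matrix.single i j (c X)) * f X)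

theorem TF.comp {f g : M n Δ → M n Δ} (hf : TF f) (hg : TF g) : TF (fun X => f X * g X) := by
  induction hf with
  | one => simpa using hg
  | mul i j hij hc _ ih =>
      have := TF.mul i j hij hc ih
      simpa only [mul_assoc] using this

theorem tendsto_single {α : Type*} {l : Filter α} (i j : Fin n) {c : α → Δ}
    (hc : Tendsto c l (𝓝 0)) :
    Tendsto (fun a => (1 : M n Δ) + Matrix.single i j (c a)) l (𝓝 1) := by
  have h1 : Tendsto (fun a => (Matrix.single i j (c a) : M n Δ)) l (𝓝 0) := by
    refine tendsto_pi_nhds.mpr fun k => tendsto_pi_nhds.mpr fun m => ?_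
    by_cases h : i = k ∧ j = m
    · obtain ⟨rfl, rfl⟩ := h
      simpa using hc
    · have : ∀ a, (Matrix.single i j (c a) : M n Δ) k m = 0 := fun a =>
        Matrix.single_apply_of_ne _ _ _ _ _ h
      simp only [this]
      exact tendsto_const_nhds
  simpa using tendsto_const_nhds.add h1

theorem TF.tendsto {f : M n Δ → M n Δ} (hf : TF f) : Tendsto f (𝓝 1) (𝓝 1) := by
  induction hf with
  | one => exact tendsto_const_nhds
  | mul i j _ hc _ ih => simpa using (tendsto_single i j hc).mul ih

/-- A column of transvections. -/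
theorem exists_col (t : Fin n) (c : Fin n → M n Δ → Δ) (hc : ∀ i, Tendsto (c i) (𝓝 1) (𝓝 0)) :
    ∀ S : Finset (Fin n), t ∉ S → ∃ f, TF f ∧
      ∀ X, f X = 1 + ∑ i ∈ S, Matrix.single i t (c i X) := by
  classical
  intro S
  induction S using Finset.induction_on with
  | empty => intro _; exact ⟨_, TF.one, fun X => by simp⟩
  | insert a S ha ih =>
      intro ht
      rw [Finset.mem_insert, not_or] at ht
      obtain ⟨f, hf, hX⟩ := ih ht.2
      refine ⟨_, TF.mul a t (Ne.symm ht.1) (hc a) hf, fun X => ?_⟩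
      rw [hX, Finset.sum_insert ha]
      have : (Matrix.single a t (c a X) : M n Δ) * ∑ i ∈ S, Matrix.single i t (c i X) = 0 := by
        rw [Finset.mul_sum]
        refine Finset.sum_eq_zero fun i hi => ?_
        rw [Matrix.single_mul_single_of_ne]
        rintro rfl
        exact ht.2 hi
      rw [mul_add, add_mul, add_mul, this]
      simp only [one_mul, mul_one, add_zero]
      abel

/-- A row of transvections. -/
theorem exists_row (t : Fin n) (c : Fin n → M n Δ → Δ) (hc : ∀ i, Tendsto (c i) (𝓝 1) (𝓝 0)) :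
    ∀ S : Finset (Fin n), t ∉ S → ∃ f, TF f ∧
      ∀ X, f X = 1 + ∑ i ∈ S, Matrix.single t i (c i X) := by
  classical
  intro S
  induction S using Finset.induction_on with
  | empty => intro _; exact ⟨_, TF.one, fun X => by simp⟩
  | insert a S ha ih =>
      intro ht
      rw [Finset.mem_insert, not_or] at ht
      obtain ⟨f, hf, hX⟩ := ih ht.2
      refine ⟨_, TF.mul t a ht.1 (hc a) hf, fun X => ?_⟩
      rw [hX, Finset.sum_insert ha]
      have : (Matrix.single t a (c a X) : M n Δ) * ∑ i ∈ S, Matrix.single t i (c i X) = 0 := by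
        rw [Finset.mul_sum]
        refine Finset.sum_eq_zero fun i hi => ?_
        rw [Matrix.single_mul_single_of_ne]
        exact Ne.symm ht.1
      rw [mul_add, add_mul, add_mul, this]
      simp only [one_mul, mul_one, add_zero]
      abel

theorem col_mul (t : Fin n) (c : Fin n → Δ) (S : Finset (Fin n)) (Y : M n Δ) (i j : Fin n) :
    ((1 + ∑ k ∈ S, Matrix.single k t (c k)) * Y) i j
      = Y i j + if i ∈ S then c i * Y t j else 0 := by
  rw [add_mul, one_mul, Matrix.add_apply, Finset.sum_mul, Matrix.sum_apply]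
  congr 1
  by_cases hi : i ∈ S
  · rw [if_pos hi, Finset.sum_eq_single i]
    · rw [Matrix.single_mul_apply_same]
    · intro k _ hk
      rw [Matrix.single_mul_apply_of_ne _ _ _ _ _ (Ne.symm hk)]
    · intro h; exact absurd hi h
  · rw [if_neg hi]
    refine Finset.sum_eq_zero fun k hk => ?_
    rw [Matrix.single_mul_apply_of_ne]
    rintro rfl
    exact hi hk

theorem mul_row (t : Fin n) (c : Fin n → Δ) (S : Finset (Fin n)) (Z : M n Δ) (i j : Fin n) :
    (Z * (1 + ∑ k ∈ S, Matrix.single t k (c k))) i j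
      = Z i j + if j ∈ S then Z i t * c j else 0 := by
  rw [mul_add, mul_one, Matrix.add_apply, Finset.mul_sum, Matrix.sum_apply]
  congr 1
  by_cases hj : j ∈ S
  · rw [if_pos hj, Finset.sum_eq_single j]
    · rw [Matrix.mul_single_apply_same]
    · intro k _ hk
      rw [Matrix.mul_single_apply_of_ne _ _ _ _ _ (Ne.symm hk)]
    · intro h; exact absurd hj h
  · rw [if_neg hj]
    refine Finset.sum_eq_zero fun k hk => ?_
    rw [Matrix.mul_single_apply_of_ne]
    rintro rfl
    exact hj hk

theorem tendsto_entry {α : Type*} {l : Filter α} {f : α → M n Δ} (hf : Tendsto f l (𝓝 1))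
    (i j : Fin n) : Tendsto (fun a => f a i j) l (𝓝 ((1 : M n Δ) i j)) := by
  have h := tendsto_pi_nhds.mp hf i
  exact tendsto_pi_nhds.mp h j

/-- Elimination near one. -/
theorem elim (hinv : Tendsto (fun x : Δ => x⁻¹) (𝓝 1) (𝓝 1)) (hne : ∀ᶠ x in 𝓝 (1 : Δ), x ≠ 0) :
    ∀ t : ℕ, t ≤ n → ∃ f g : M n Δ → M n Δ, TF f ∧ TF g ∧ ∀ᶠ X in 𝓝 (1 : M n Δ),
      ∀ i j : Fin n, i ≠ j → ((i : ℕ) < t ∨ (j : ℕ) < t) → (f X * X * g X) i j = 0 := by
  classical
  intro t
  induction t with
  | zero =>
      intro _
      exact ⟨_, _, TF.one, TF.one, Eventually.of_forall fun X i j _ h => by omega⟩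
  | succ t ih =>
      intro ht
      obtain ⟨f, g, hf, hg, hfg⟩ := ih (by omega)
      set Y : M n Δ → M n Δ := fun X => f X * X * g X with hY
      have hYt : Tendsto Y (𝓝 1) (𝓝 1) := by
        have := (hf.tendsto.mul tendsto_id).mul hg.tendsto
        simpa using this
      let τ : Fin n := ⟨t, by omega⟩
      have hy : Tendsto (fun X => Y X τ τ) (𝓝 1) (𝓝 1) := by
        simpa using tendsto_entry hYt τ τ
      have hyi : Tendsto (fun X => (Y X τ τ)⁻¹) (𝓝 1) (𝓝 1) := hinv.comp hy
      have hyne : ∀ᶠ X in 𝓝 (1 : M n Δ), Y X τ τ ≠ 0 := hy.eventually hne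
      -- the columns
      let c1 : Fin n → M n Δ → Δ := fun i X => if i = τ then 0 else -(Y X i τ * (Y X τ τ)⁻¹)
      have hc1 : ∀ i, Tendsto (c1 i) (𝓝 1) (𝓝 0) := by
        intro i
        by_cases hi : i = τ
        · simp only [c1, if_pos hi]; exact tendsto_const_nhds
        · simp only [c1, if_neg hi]
          have h1 := tendsto_entry hYt i τ
          rw [Matrix.one_apply_ne hi] at h1
          simpa using (h1.mul hyi).neg
      let c2 : Fin n → M n Δ → Δ := fun j X => if j = τ then 0 else -((Y X τ τ)⁻¹ * Y X τ j)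
      have hc2 : ∀ i, Tendsto (c2 i) (𝓝 1) (𝓝 0) := by
        intro i
        by_cases hi : i = τ
        · simp only [c2, if_pos hi]; exact tendsto_const_nhds
        · simp only [c2, if_neg hi]
          have h1 := tendsto_entry hYt τ i
          rw [Matrix.one_apply_ne (Ne.symm hi)] at h1
          simpa using (hyi.mul h1).neg
      let S : Finset (Fin n) := Finset.univ.filter fun i => t < (i : ℕ)
      have hS : ∀ i, i ∈ S ↔ t < (i : ℕ) := fun i => by simp [S]
      have hτS : τ ∉ S := by rw [hS]; simp [τ]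
      obtain ⟨f1, hf1, hf1X⟩ := exists_col τ c1 hc1 S hτS
      obtain ⟨g1, hg1, hg1X⟩ := exists_row τ c2 hc2 S hτS
      refine ⟨fun X => f1 X * f X, fun X => g X * g1 X, hf1.comp hf, hg.comp hg1, ?_⟩
      filter_upwards [hfg, hyne] with X hX hy0 i j hij hlt
      have e1 : f1 X * f X * X * (g X * g1 X) = f1 X * Y X * g1 X := by
        simp only [hY, mul_assoc]
      rw [e1, hf1X, hg1X, mul_row, col_mul, col_mul]
      have hz : ∀ i j : Fin n, i ≠ j → ((i : ℕ) < t ∨ (j : ℕ) < t) → Y X i j = 0 := hX
      have hne' : ∀ i : Fin n, i ∈ S → i ≠ τ := by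
        rintro i hi rfl; exact hτS hi
      have hcol : ∀ i : Fin n, i ∈ S → Y X i τ + c1 i X * Y X τ τ = 0 := by
        intro i hi
        simp only [c1, if_neg (hne' i hi)]
        rw [neg_mul, mul_assoc, inv_mul_cancel₀ hy0, mul_one, add_neg_cancel]
      by_cases hit : (i : ℕ) < t
      · have hiS : i ∉ S := by rw [hS]; omega
        have hiτ : i ≠ τ := by rintro rfl; simp [τ] at hit
        rw [if_neg hiS, if_neg hiS, hz i j hij (Or.inl hit), hz i τ hiτ (Or.inl hit)]
        simp
      · by_cases hjt : (j : ℕ) < t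
        · have hjS : j ∉ S := by rw [hS]; omega
          have hjτ : τ ≠ j := by rintro rfl; simp [τ] at hjt
          rw [if_neg hjS, hz i j hij (Or.inr hjt), hz τ j hjτ (Or.inr hjt)]
          simp
        · by_cases hi : i = τ
          · subst hi
            have hjS : j ∈ S := by
              rw [hS]
              have : (j : ℕ) ≠ t := fun h => hij (Fin.ext h.symm)
              omega
            rw [if_neg hτS, if_neg hτS, if_pos hjS, add_zero, add_zero]
            simp only [c2, if_neg (hne' j hjS)]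
            rw [mul_neg, ← mul_assoc, mul_inv_cancel₀ hy0, one_mul, add_neg_cancel]
          · have hj : j = τ := by
              have h1 : (i : ℕ) ≠ t := fun h => hi (Fin.ext h)
              exact Fin.ext (by simp only [τ]; omega)
            subst hj
            have hiS : i ∈ S := by
              rw [hS]
              have : (i : ℕ) ≠ t := fun h => hi (Fin.ext h)
              omega
            rw [if_neg hτS, if_pos hiS, add_zero, hcol i hiS]

/-- **Continuous LDU decomposition near one.** -/
theorem exists_ldu (hinv : Tendsto (fun x : Δ => x⁻¹) (𝓝 1) (𝓝 1))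
    (hne : ∀ᶠ x in 𝓝 (1 : Δ), x ≠ 0) :
    ∃ (f g : M n Δ → M n Δ) (d : M n Δ → Fin n → Δ), TF f ∧ TF g ∧
      (∀ i, Tendsto (fun X => d X i) (𝓝 1) (𝓝 1)) ∧
      ∀ᶠ X in 𝓝 (1 : M n Δ), f X * X * g X = Matrix.diagonal (d X) := by
  obtain ⟨f, g, hf, hg, h⟩ := elim (Δ := Δ) (n := n) hinv hne n le_rfl
  have hYt : Tendsto (fun X => f X * X * g X) (𝓝 1) (𝓝 1) := by
    have := (hf.tendsto.mul tendsto_id).mul hg.tendsto
    simpa using this
  refine ⟨f, g, fun X i => (f X * X * g X) i i, hf, hg, fun i => ?_, ?_⟩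
  · simpa using tendsto_entry hYt i i
  · filter_upwards [h] with X hX
    ext i j
    by_cases hij : i = j
    · subst hij; rw [Matrix.diagonal_apply_eq]
    · rw [Matrix.diagonal_apply_ne _ hij]
      exact hX i j hij (Or.inl i.2)

/-- A germ of a homomorphism near one, invariant under fixed conjugations. -/
structure GH {E : Type*} [AddCommMonoid E] (θ : M n Δ → E) : Prop where
  zero : θ 1 = 0
  mul : ∀ᶠ p : M n Δ × M n Δ in 𝓝 (1, 1), θ (p.1 * p.2) = θ p.1 + θ p.2
  conj : ∀ P P' : M n Δ, P * P' = 1 → P' * P = 1 → ∀ᶠ X in 𝓝 (1 : M n Δ), θ (P * X * P') = θ X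

variable {E : Type*} [AddCommMonoid E] {θ : M n Δ → E}

theorem GH.map_mul (h : GH θ) {α : Type*} {l : Filter α} {f g : α → M n Δ}
    (hf : Tendsto f l (𝓝 1)) (hg : Tendsto g l (𝓝 1)) :
    ∀ᶠ a in l, θ (f a * g a) = θ (f a) + θ (g a) :=
  (hf.prodMk_nhds hg).eventually h.mul

theorem GH.map_conj (h : GH θ) {α : Type*} {l : Filter α} {f : α → M n Δ}
    (hf : Tendsto f l (𝓝 1)) {P P' : M n Δ} (h1 : P * P' = 1) (h2 : P' * P = 1) :
    ∀ᶠ a in l, θ (P * f a * P') = θ (f a) :=
  hf.eventually (h.conj P P' h1 h2)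

theorem dg_mul (i : Fin n) (a b : Δ) : dg i (a * b) = dg i a * dg i b := by
  unfold dg
  rw [Matrix.diagonal_mul_diagonal]
  congr 1
  funext k
  by_cases hk : k = i
  · subst hk; simp
  · simp [Function.update_of_ne hk]

theorem dg_one (i : Fin n) : dg i (1 : Δ) = 1 := by
  unfold dg
  rw [show Function.update (1 : Fin n → Δ) i 1 = 1 from by
    funext k
    by_cases hk : k = i
    · subst hk; simp
    · simp [Function.update_of_ne hk]]
  exact Matrix.diagonal_one

theorem tendsto_diagonal {α : Type*} {l : Filter α} {v : α → Fin n → Δ}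
    (hv : ∀ i, Tendsto (fun a => v a i) l (𝓝 1)) :
    Tendsto (fun a => (Matrix.diagonal (v a) : M n Δ)) l (𝓝 1) := by
  refine tendsto_pi_nhds.mpr fun i => tendsto_pi_nhds.mpr fun j => ?_
  by_cases h : i = j
  · subst h
    simpa using hv i
  · simp only [Matrix.diagonal_apply_ne _ h, Matrix.one_apply_ne h]
    exact tendsto_const_nhds

theorem tendsto_dg {α : Type*} {l : Filter α} (i : Fin n) {v : α → Δ}
    (hv : Tendsto v l (𝓝 1)) : Tendsto (fun a => dg i (v a)) l (𝓝 1) := by
  refine tendsto_diagonal fun j => ?_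
  by_cases h : j = i
  · subst h; simpa using hv
  · simp only [Function.update_of_ne h]; exact tendsto_const_nhds

/-- Small transvections die. -/
theorem GH.transv (h : GH θ) {lam : Δ} (hl0 : lam ≠ 0) (hl1 : lam ≠ 1) {i j : Fin n}
    (hij : i ≠ j) : ∀ᶠ c in 𝓝 (0 : Δ), θ (1 + Matrix.single i j c) = 0 := by
  have hl : lam - 1 ≠ 0 := sub_ne_zero.mpr hl1
  have hadd : ∀ a b : Δ, ((1 : M n Δ) + Matrix.single i j a) * (1 + Matrix.single i j b)
      = 1 + Matrix.single i j (a + b) := by
    intro a b
    have h0 : (Matrix.single i j a : M n Δ) * Matrix.single i j b = 0 := by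
      rw [Matrix.single_mul_single_of_ne]
      exact Ne.symm hij
    rw [mul_add, add_mul, add_mul, h0, Matrix.single_add]
    simp only [one_mul, mul_one, add_zero]
    abel
  have hφ : Tendsto (fun c : Δ => (lam - 1)⁻¹ * c) (𝓝 0) (𝓝 0) := by
    have : Tendsto (fun c : Δ => (lam - 1)⁻¹ * c) (𝓝 0) (𝓝 ((lam - 1)⁻¹ * 0)) :=
      tendsto_const_nhds.mul tendsto_id
    simpa using this
  have hφn : Tendsto (fun c : Δ => -((lam - 1)⁻¹ * c)) (𝓝 0) (𝓝 0) := by
    simpa using hφ.neg
  have hP1 : dg i lam * dg i lam⁻¹ = (1 : M n Δ) := by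
    rw [← dg_mul, mul_inv_cancel₀ hl0, dg_one]
  have hP2 : dg i lam⁻¹ * dg i lam = (1 : M n Δ) := by
    rw [← dg_mul, inv_mul_cancel₀ hl0, dg_one]
  have hc : ∀ a : Δ, dg i lam * (1 + Matrix.single i j a) * dg i lam⁻¹
      = 1 + Matrix.single i j (lam * a) := by
    intro a
    have e : dg i lam * Matrix.single i j a * dg i lam⁻¹ = Matrix.single i j (lam * a) := by
      ext k l
      unfold dg
      rw [Matrix.mul_diagonal, Matrix.diagonal_mul]
      by_cases hk : i = k
      · subst hk
        by_cases hl : j = l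
        · subst hl
          simp [Function.update_of_ne (Ne.symm hij)]
        · rw [Matrix.single_apply_of_ne _ _ _ _ _ (fun h => hl h.2),
            Matrix.single_apply_of_ne _ _ _ _ _ (fun h => hl h.2)]
          simp
      · rw [Matrix.single_apply_of_ne _ _ _ _ _ (fun h => hk h.1),
          Matrix.single_apply_of_ne _ _ _ _ _ (fun h => hk h.1)]
        simp
    rw [mul_add, add_mul, mul_one, hP1, e]
  have t1 := h.map_conj (tendsto_single i j hφ) hP1 hP2
  have t2 := h.map_mul (tendsto_single i j (tendsto_id (α := Δ) (x := 𝓝 0)))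
    (tendsto_single i j hφ)
  have t3 := h.map_mul (tendsto_single i j hφ) (tendsto_single i j hφn)
  filter_upwards [t1, t2, t3] with c h1 h2 h3
  rw [hc] at h1
  rw [id, hadd] at h2
  rw [hadd, add_neg_cancel, Matrix.single_zero, add_zero, h.zero] at h3
  have e : lam * ((lam - 1)⁻¹ * c) = c + (lam - 1)⁻¹ * c := by
    have : lam = (lam - 1) + 1 := by abel
    conv_lhs => rw [this]
    rw [add_mul, one_mul, ← mul_assoc, sub_add_cancel, mul_inv_cancel₀ hl, one_mul]
  rw [e, h2] at h1
  calc θ (1 + Matrix.single i j c)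
      = θ (1 + Matrix.single i j c) + (θ (1 + Matrix.single i j ((lam - 1)⁻¹ * c))
          + θ (1 + Matrix.single i j (-((lam - 1)⁻¹ * c)))) := by rw [← h3, add_zero]
    _ = 0 := by rw [← add_assoc, h1, ← h3]

theorem GH.tf (h : GH θ) {lam : Δ} (hl0 : lam ≠ 0) (hl1 : lam ≠ 1) {f : M n Δ → M n Δ}
    (hf : TF f) : ∀ᶠ X in 𝓝 (1 : M n Δ), θ (f X) = 0 := by
  induction hf with
  | one => exact Eventually.of_forall fun _ => h.zero
  | mul i j hij hc hf ih =>
      filter_upwards [h.map_mul (tendsto_single i j hc) hf.tendsto, ih,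
        hc.eventually (h.transv hl0 hl1 hij)] with X h1 h2 h3
      rw [h1, h2, h3, add_zero]

theorem GH.dg_eq (h : GH θ) (i j : Fin n) : ∀ᶠ d in 𝓝 (1 : Δ), θ (dg i d) = θ (dg j d) := by
  classical
  let σ := Equiv.swap i j
  let P : M n Δ := (1 : M n Δ).submatrix σ id
  let P' : M n Δ := (1 : M n Δ).submatrix id σ
  have e : ∀ A : M n Δ, P * A * P' = A.submatrix σ σ := by
    intro A
    ext k l
    simp only [P, P', Matrix.mul_apply, Matrix.submatrix_apply, id, Matrix.one_apply, ite_mul,
      one_mul, zero_mul, Finset.sum_ite_eq, Finset.mem_univ, if_true, mul_ite, mul_one, mul_zero,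
      Finset.sum_ite_eq']
  have h1 : P * P' = 1 := by
    have := e 1
    rw [mul_one] at this
    rw [this]
    exact Matrix.submatrix_one_equiv σ
  have h2 : P' * P = 1 := by
    ext k l
    simp only [P, P', Matrix.mul_apply, Matrix.submatrix_apply, id, Matrix.one_apply, ite_mul,
      one_mul, zero_mul]
    rw [Finset.sum_eq_single (σ k)]
    · simp [σ]
    · intro m _ hm
      rw [if_neg]
      intro hk
      apply hm
      rw [hk]
      simp [σ]
    · intro hn; exact absurd (Finset.mem_univ _) hn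
  have h3 := h.map_conj (tendsto_dg i (tendsto_id (α := Δ) (x := 𝓝 1))) h1 h2
  filter_upwards [h3] with d hd
  rw [e] at hd
  rw [id] at hd
  rw [← hd]
  congr 1
  unfold dg
  rw [Matrix.submatrix_diagonal_equiv]
  congr 1
  funext k
  simp only [Function.comp, σ]
  by_cases hk : k = j
  · subst hk; simp
  · rw [Function.update_of_ne hk, Function.update_of_ne]
    · rfl
    · intro h'
      apply hk
      have := congrArg (Equiv.swap i j) h'
      simpa using this

theorem GH.diag (h : GH θ) {α : Type*} {l : Filter α} {v : α → Fin n → Δ}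
    (hv : ∀ i, Tendsto (fun a => v a i) l (𝓝 1)) :
    ∀ᶠ a in l, θ (Matrix.diagonal (v a)) = ∑ i, θ (dg i (v a i)) := by
  classical
  have key : ∀ S : Finset (Fin n), ∀ᶠ a in l,
      θ (Matrix.diagonal (fun i => if i ∈ S then v a i else 1)) = ∑ i ∈ S, θ (dg i (v a i)) := by
    intro S
    induction S using Finset.induction_on with
    | empty =>
        refine Eventually.of_forall fun a => ?_
        have : (Matrix.diagonal fun i : Fin n => if i ∈ (∅ : Finset (Fin n)) then v a i else 1)
            = (1 : M n Δ) := by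
          simp only [Finset.notMem_empty, if_false]
          exact Matrix.diagonal_one
        rw [this, h.zero, Finset.sum_empty]
    | insert b S hb ih =>
        have hD : Tendsto (fun a => (Matrix.diagonal (fun i => if i ∈ S then v a i else 1) : M n Δ))
            l (𝓝 1) := by
          refine tendsto_diagonal fun i => ?_
          by_cases hi : i ∈ S
          · simpa only [if_pos hi] using hv i
          · simpa only [if_neg hi] using tendsto_const_nhds
        filter_upwards [ih, h.map_mul (tendsto_dg b (hv b)) hD] with a h1 h2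
        rw [Finset.sum_insert hb, ← h1, ← h2]
        congr 1
        unfold dg
        rw [Matrix.diagonal_mul_diagonal]
        congr 1
        funext i
        by_cases hi : i = b
        · subst hi; simp [hb]
        · simp [hi]
  filter_upwards [key Finset.univ] with a ha
  simpa using ha

theorem GH.list (h : GH θ) (i0 : Fin n) {α : Type*} {l : Filter α} :
    ∀ L : List (α → Δ), (∀ v ∈ L, Tendsto v l (𝓝 1)) →
      Tendsto (fun a => (L.map fun v => v a).prod) l (𝓝 1) ∧
      ∀ᶠ a in l, θ (dg i0 (L.map fun v => v a).prod) = (L.map fun v => θ (dg i0 (v a))).sum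
  | [], _ => by
      refine ⟨by simpa using tendsto_const_nhds, Eventually.of_forall fun a => ?_⟩
      simp [dg_one, h.zero]
  | v :: L, hL => by
      obtain ⟨h1, h2⟩ := h.list i0 L fun w hw => hL w (List.mem_cons_of_mem _ hw)
      have hv := hL v (List.mem_cons_self)
      constructor
      · simpa using hv.mul h1
      · filter_upwards [h2, h.map_mul (tendsto_dg i0 hv) (tendsto_dg i0 h1)] with a h3 h4
        simp only [List.map_cons, List.prod_cons, List.sum_cons]
        rw [dg_mul, h4, h3]

/-- **The pivot product.** One map serves all germs. -/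
theorem exists_pivot (hinv : Tendsto (fun x : Δ => x⁻¹) (𝓝 1) (𝓝 1))
    (hne : ∀ᶠ x in 𝓝 (1 : Δ), x ≠ 0) {lam : Δ} (hl0 : lam ≠ 0) (hl1 : lam ≠ 1) (i0 : Fin n) :
    ∃ δ : M n Δ → Δ, Tendsto δ (𝓝 1) (𝓝 1) ∧
      ∀ (E : Type*) [AddCommMonoid E] (θ : M n Δ → E), GH θ →
        ∀ᶠ X in 𝓝 (1 : M n Δ), θ X = θ (dg i0 (δ X)) := by
  obtain ⟨f, g, d, hf, hg, hd, hX⟩ := exists_ldu (Δ := Δ) (n := n) hinv hne
  let L : List (M n Δ → Δ) := List.ofFn fun i X => d X i
  have hL : ∀ v ∈ L, Tendsto v (𝓝 1) (𝓝 1) := by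
    intro v hv
    obtain ⟨i, rfl⟩ := (List.mem_ofFn' _ _).mp hv
    exact hd i
  refine ⟨fun X => (L.map fun v => v X).prod, ?_, ?_⟩
  · have h0 : GH (fun _ : M n Δ => (0 : ℕ)) :=
      ⟨rfl, Eventually.of_forall fun _ => rfl, fun _ _ _ _ => Eventually.of_forall fun _ => rfl⟩
    exact (h0.list i0 L hL).1
  · intro E _ θ h
    have hYt : Tendsto (fun X => f X * X) (𝓝 1) (𝓝 (1 : M n Δ)) := by
      have := hf.tendsto.mul (tendsto_id (α := M n Δ) (x := 𝓝 1))
      simpa using this
    have hall : ∀ᶠ X in 𝓝 (1 : M n Δ), ∀ i, θ (dg i (d X i)) = θ (dg i0 (d X i)) :=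
      eventually_all.mpr fun i => (hd i).eventually (h.dg_eq i i0)
    filter_upwards [hX, h.tf hl0 hl1 hf, h.tf hl0 hl1 hg, h.diag hd, (h.list i0 L hL).2,
      h.map_mul hYt hg.tendsto, h.map_mul hf.tendsto (tendsto_id (α := M n Δ) (x := 𝓝 1)), hall]
      with X e1 e2 e3 e4 e5 e6 e7 e8
    simp only [id] at e7
    rw [e5]
    have e9 : (L.map fun v => θ (dg i0 (v X))).sum = ∑ i, θ (dg i0 (d X i)) := by
      simp only [L, List.map_ofFn, List.sum_ofFn, Function.comp]
    rw [e9, ← Finset.sum_congr rfl fun i _ => e8 i, ← e4, ← e1, e6, e3, add_zero, e7, e2,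
      zero_add]

/-- **Scalar matrices.** -/
theorem GH.scalar (h : GH θ) (i0 : Fin n) :
    ∀ᶠ d in 𝓝 (1 : Δ), θ (Matrix.diagonal fun _ => d) = n • θ (dg i0 d) := by
  have hall : ∀ᶠ d in 𝓝 (1 : Δ), ∀ i, θ (dg i d) = θ (dg i0 d) :=
    eventually_all.mpr fun i => h.dg_eq i i0
  filter_upwards [h.diag (v := fun (d : Δ) (_ : Fin n) => d) fun _ => tendsto_id, hall] with d h1 h2
  rw [h1, Finset.sum_congr rfl fun i _ => h2 i, Finset.sum_const, Finset.card_univ,
    Fintype.card_fin]

/-- A multiplicative map to a commutative monoid is a germ of a homomorphism. -/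
theorem gh_of_hom {F : Type*} [CommMonoid F] (χ : M n Δ →* F) :
    GH (fun X => Additive.ofMul (χ X)) := by
  refine ⟨by simp, Eventually.of_forall fun p => by simp, fun P P' h1 h2 =>
    Eventually.of_forall fun X => ?_⟩
  have : χ (P * X * P') = χ X := by
    rw [map_mul, map_mul, mul_comm (χ P), mul_assoc, ← map_mul, h1, map_one, mul_one]
  simp only [this]

end Vale.Agent.P011.H275.GW8
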