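import Vale.Agent.P011.H275.GW8
import Vale.Agent.P011.H677.GW.Pow

/-!
Wang's theorem near one, general degree (G8): from the prime power case.
-/

set_option linter.unusedSectionVars false

open Module Filter Topology TensorProduct

namespace Vale.Agent.P011.H275.GW8

open Vale.Agent.P011.W (HasNrd deg_pos)
open Vale.Agent.P011.H677.GW
open Vale.Agent.P011.H505.Wang (exists_galois_split' exists_data_pow exists_corner hasNrd_of_det)
open Vale.Agent.P011S (bcf bcf_one_tmul exists_sylow_field dgU dgU_val)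

/-- The prime power case (for the degrees with the property `P`, e.g. the odd ones). -/
def Sk1Near (k : Type) [Field k] [TopologicalSpace k] (A : Type) [AddCommGroup A] (M : ℕ)
    (P : ℕ → Prop) : Prop :=
  ∀ (p a m' : ℕ), p.Prime → M = p ^ a * m' → ¬ p ∣ m' → ∀ (e : ℕ), P (p ^ e) →
    ∀ (Z C : Type) [Field Z] [Algebra k Z] [FiniteDimensional k Z] [DivisionRing C] [Algebra Z C]
    [Algebra k C] [IsScalarTower k Z C] [FiniteDimensional Z C] [Algebra.IsCentral Z C],
    finrank Z C = (p ^ e) ^ 2 → ∀ F : C → A, Good k F →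
      ∀ᶠ x in nb k C, HasNrd Z (p ^ e) x 1 → m' • F x = 0

variable {k : Type} [Field k] [TopologicalSpace k] [IsTopologicalDivisionRing k] [T2Space k]
  [Infinite k] {A : Type} [AddCommGroup A]

section top

variable {Δ : Type} [DivisionRing Δ] [Algebra k Δ] [FiniteDimensional k Δ]

theorem nb_matrix [TopologicalSpace Δ] [IsModuleTopology k Δ] (n : ℕ) :
    nb k (Matrix (Fin n) (Fin n) Δ) = 𝓝 1 := by
  have h1 : IsModuleTopology k (Matrix (Fin n) (Fin n) Δ) :=
    inferInstanceAs (IsModuleTopology k (Fin n → Fin n → Δ))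
  unfold nb
  rw [← h1.eq_moduleTopology']

end top

theorem part {M p a m' : ℕ} (hp : p.Prime) (hM : M = p ^ a * m') (hpm : ¬ p ∣ m')
    {P : ℕ → Prop} (hS : Sk1Near k A M P) (hC : ConjM k A) (hB : BaseP k A)
    {K : Type} [Field K] [Algebra k K] [FiniteDimensional k K]
    {D : Type} [DivisionRing D] [Algebra K D] [Algebra k D] [IsScalarTower k K D]
    [FiniteDimensional K D] [Algebra.IsCentral K D] {d : ℕ} (hD : finrank K D = d ^ 2)
    (hP : ∀ m, m ∣ d → P m) {F0 : D → A} (hF : Good k F0) :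
    ∃ c, Nat.Coprime c p ∧ ∀ᶠ x in nb k D, HasNrd K d x 1 → (c * m') • F0 x = 0 := by
  classical
  have : Fact p.Prime := ⟨hp⟩
  obtain ⟨N, _, _, _, _, ⟨g⟩⟩ := exists_galois_split' (K := K) (D := D) hD
  obtain ⟨E, hcop, b, hb⟩ := exists_sylow_field (k := K) (N := N) p
  obtain ⟨n, hn, Δ, i1, i2, i3, i4, ψ, j, hnq, hΔ, hnE⟩ := exists_data_pow hp hb g hD
  have hcopn : Nat.Coprime n p := Nat.Coprime.coprime_dvd_left hnE hcop
  -- the structures over the base field
  let algkE : Algebra k E := ((algebraMap K E).comp (algebraMap k K)).toAlgebra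
  have towE : IsScalarTower k K E := IsScalarTower.of_algebraMap_eq fun x => rfl
  have finE : FiniteDimensional k E := Module.Finite.trans K E
  let algkΔ : Algebra k Δ := Algebra.compHom Δ (algebraMap k E)
  have towΔ : IsScalarTower k E Δ := IsScalarTower.of_algebraMap_eq fun x => rfl
  have finΔ : FiniteDimensional k Δ := Module.Finite.trans E Δ
  have infE : Infinite E := Infinite.of_injective _ (algebraMap k E).injective
  obtain ⟨F1, hF1, hF1x⟩ := hB K D E F0 hF
  let ψk : (E ⊗[K] D) ≃ₐ[k] Matrix (Fin n) (Fin n) Δ := ψ.restrictScalars k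
  let θ : GW8.M n Δ → A := fun X => F1 (ψk.symm X)
  have hθ : Good k θ := hF1.comp (ψk.symm : Matrix (Fin n) (Fin n) Δ →ₐ[k] E ⊗[K] D)
  -- the topology
  let tΔ : TopologicalSpace Δ := moduleTopology k Δ
  have mΔ : IsModuleTopology k Δ := ⟨rfl⟩
  have rΔ : IsTopologicalRing Δ := IsModuleTopology.isTopologicalRing k Δ
  have hnb : nb k (Matrix (Fin n) (Fin n) Δ) = 𝓝 1 := nb_matrix n
  have hθ' : ∀ᶠ p : GW8.M n Δ × GW8.M n Δ in 𝓝 (1, 1), θ (p.1 * p.2) = θ p.1 + θ p.2 := by
    have h := hθ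
    unfold Good at h
    rw [hnb, ← nhds_prod_eq] at h
    exact h
  have hGH : GH θ := by
    refine ⟨?_, hθ', fun P P' h1 h2 => ?_⟩
    · have h := hθ'.self_of_nhds
      simp only [mul_one] at h
      exact left_eq_add.mp h
    · have h := hC Δ n θ hθ P P' h1 h2
      rw [hnb] at h
      exact h
  have hinv : Tendsto (fun x : Δ => x⁻¹) (𝓝 1) (𝓝 1) := nb_inv k (C := Δ)
  have hne : ∀ᶠ x in 𝓝 (1 : Δ), x ≠ 0 := nb_ne_zero k (C := Δ)
  obtain ⟨c, hc⟩ := Infinite.exists_notMem_finset ({0, 1} : Finset k)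
  simp only [Finset.mem_insert, Finset.mem_singleton, not_or] at hc
  have hl0 : algebraMap k Δ c ≠ 0 := by
    rw [Ne, FaithfulSMul.algebraMap_eq_zero_iff]; exact hc.1
  have hl1 : algebraMap k Δ c ≠ 1 := by
    intro h
    apply hc.2
    apply (algebraMap k Δ).injective
    rw [h, map_one]
  obtain ⟨δ, hδt, hδ⟩ := exists_pivot (n := n) hinv hne hl0 hl1 0
  -- the determinant
  let G : Matrix (Fin n) (Fin n) Δ →ₐ[E] Matrix (Fin d) (Fin d) N :=
    (bcf g).comp (ψ.symm : Matrix (Fin n) (Fin n) Δ →ₐ[E] E ⊗[K] D)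
  let χ : GW8.M n Δ →* N := Matrix.detMonoidHom.comp (G : _ →* Matrix (Fin d) (Fin d) N)
  have hχ := hδ (Additive N) _ (gh_of_hom χ)
  obtain ⟨f2, hf2⟩ := exists_corner G hnq
  -- the scalar germ
  let sc : Δ →ₐ[k] Matrix (Fin n) (Fin n) Δ :=
    { toFun := fun y => Matrix.diagonal fun _ => y
      map_one' := Matrix.diagonal_one
      map_mul' := fun x y => by rw [Matrix.diagonal_mul_diagonal]
      map_zero' := Matrix.diagonal_zero
      map_add' := fun x y => by rw [Matrix.diagonal_add]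
      commutes' := fun r => by
        rw [Matrix.algebraMap_eq_diagonal]
        rfl }
  have hF2 : Good k fun y : Δ => θ (Matrix.diagonal fun _ => y) := hθ.comp sc
  have hS2 := hS p a m' hp hM hpm j (hP _ ⟨n, by rw [← hnq, mul_comm]⟩) E Δ hΔ _ hF2
  have hsc := hGH.scalar 0
  -- the map from `D`
  let inc : D →ₐ[k] Matrix (Fin n) (Fin n) Δ := (ψk : E ⊗[K] D →ₐ[k] _).comp
    ((Algebra.TensorProduct.includeRight : D →ₐ[K] E ⊗[K] D).restrictScalars k)
  have hinc : Tendsto inc (nb k D) (𝓝 1) := by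
    have h := nb_alg k inc
    rwa [hnb] at h
  have hincx : ∀ x, inc x = ψ (1 ⊗ₜ x) := fun x => rfl
  have hθx : ∀ x, θ (inc x) = F1 (1 ⊗ₜ x) := fun x => by
    change F1 (ψ.symm (ψ (1 ⊗ₜ x))) = _
    rw [AlgEquiv.symm_apply_apply]
  have hδx := hδt.comp hinc
  refine ⟨finrank K E * n, Nat.Coprime.mul_left hcop hcopn, ?_⟩
  filter_upwards [hF1x, hinc.eventually (hδ A θ hGH), hinc.eventually hχ, hδx.eventually hS2,
    hδx.eventually hsc, hδx.eventually hne] with x h1 h2 h3 h4 h5 h6 hx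
  have hdet : (g x).det = 1 := by
    have := hx N g
    rwa [map_one] at this
  have hGx : (G (inc x)).det = 1 := by
    change (bcf g (ψ.symm (ψ (1 ⊗ₜ x)))).det = 1
    rw [AlgEquiv.symm_apply_apply, bcf_one_tmul, hdet]
  have h7 : (G (dg 0 (δ (inc x)))).det = 1 := by
    have h := congrArg Additive.toMul h3
    change (G (inc x)).det = (G (dg 0 (δ (inc x)))).det at h
    rw [← h, hGx]
  have h8 : (f2 (δ (inc x))).det = 1 := by
    have h := hf2 (Units.mk0 (δ (inc x)) h6)
    rw [dgU_val, Units.val_mk0] at h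
    rw [← h]
    exact h7
  have h9 : HasNrd E (p ^ j) (δ (inc x)) 1 := hasNrd_of_det hΔ f2 (by rw [h8, map_one])
  have h10 : m' • θ (Matrix.diagonal fun _ => δ (inc x)) = 0 := h4 h9
  have h5' : θ (Matrix.diagonal fun _ => δ (inc x)) = n • θ (dg 0 (δ (inc x))) := h5
  have h2' : θ (inc x) = θ (dg 0 (δ (inc x))) := h2
  rw [h5', ← h2', hθx, h1] at h10
  rw [← h10, ← mul_smul, ← mul_smul]
  congr 1
  ring

/-- **Wang's theorem near one.** -/
theorem rw_near {M : ℕ} (hM0 : M ≠ 0) (hME : ∀ e : A, M • e = 0)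
    {P : ℕ → Prop} (hS : Sk1Near k A M P) (hC : ConjM k A) (hB : BaseP k A)
    {K : Type} [Field K] [Algebra k K] [FiniteDimensional k K]
    {D : Type} [DivisionRing D] [Algebra K D] [Algebra k D] [IsScalarTower k K D]
    [FiniteDimensional K D] [Algebra.IsCentral K D] {n : ℕ} (hD : finrank K D = n ^ 2)
    (hP : ∀ m, m ∣ n → P m) {F : D → A} (hF : Good k F) :
    ∀ᶠ x in nb k D, HasNrd K n x 1 → F x = 0 := by
  have hall : ∀ᶠ x in nb k D, ∀ p ∈ M.primeFactors, HasNrd K n x 1 →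
      ¬ p ∣ addOrderOf (F x) := by
    rw [Filter.eventually_all_finset]
    intro p hp
    have hpp : p.Prime := Nat.prime_of_mem_primeFactors hp
    obtain ⟨a, m', hpm, hMm⟩ := Nat.exists_eq_pow_mul_and_not_dvd hM0 p hpp.ne_one
    obtain ⟨c, hc, h⟩ := part hpp hMm hpm hS hC hB hD hP hF
    refine h.mono fun x hx hn hdvd => ?_
    have h1 : p ∣ c * m' := hdvd.trans (addOrderOf_dvd_of_nsmul_eq_zero (hx hn))
    rcases (Nat.Prime.dvd_mul hpp).mp h1 with h2 | h2
    · have h3 := Nat.dvd_gcd h2 (dvd_refl p)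
      rw [hc.gcd_eq_one] at h3
      exact hpp.one_lt.ne' (Nat.dvd_one.mp h3)
    · exact hpm h2
  refine hall.mono fun x hx hn => ?_
  rw [← AddMonoid.addOrderOf_eq_one_iff]
  by_contra hne
  obtain ⟨p, hp, hpo⟩ := Nat.exists_prime_and_dvd hne
  have h1 : p ∣ M := hpo.trans (addOrderOf_dvd_of_nsmul_eq_zero (hME _))
  exact hx p (Nat.mem_primeFactors.mpr ⟨hp, h1, hM0⟩) hn hpo

/-- **Wang's theorem near one**, from the five inputs of the frame. -/
theorem rw_near' (hConj : ConjP k A) (hConjM : ConjM k A) (hBase : BaseP k A) (hNS : NSurNear k)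
    {M : ℕ} (hM0 : M ≠ 0) (hMA : ∀ e : A, M • e = 0) (hMk : (M : k) ≠ 0) (hroot : RootP k M)
    {K : Type} [Field K] [Algebra k K] [FiniteDimensional k K]
    {D : Type} [DivisionRing D] [Algebra K D] [Algebra k D] [IsScalarTower k K D]
    [FiniteDimensional K D] [Algebra.IsCentral K D] {n : ℕ} (hD : finrank K D = n ^ 2)
    (hn : Odd n) {F : D → A} (hF : Good k F) :
    ∀ᶠ x in nb k D, HasNrd K n x 1 → F x = 0 :=
  rw_near (P := fun m => Odd m) hM0 hMA (fun _ _ _ hp hM _ e he =>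
    sk1_near k hConj hBase hNS hMA hMk hroot hp hM e he) hConjM hBase hD
    (fun _ hm => Odd.of_dvd_nat hn hm) hF

end Vale.Agent.P011.H275.GW8
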